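import Crest.Agent.R89.Herm
import Crest.Agent.R89.Alg
import Crest.Agent.R350.Gauss

/-!
# R89: moments of independent GUE matrices
-/

set_option autoImplicit false
open scoped InnerProductSpace BigOperators
open MeasureTheory Filter Topology Crest.OpAlg

namespace Crest.Agent.R89

section SteinPoly
open MvPolynomial
variable {σ : Type} [Fintype σ]

/-- Evaluation of a complex polynomial at a real point. -/
noncomputable def Stein_ev (g : σ → ℝ) : MvPolynomial σ ℂ →+* ℂ :=
  MvPolynomial.eval fun s => (g s : ℂ)

lemma Stein_ev_monomial (g : σ → ℝ) (s : σ →₀ ℕ) (a : ℂ) :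
    Stein_ev g (monomial s a) = a * ((∏ i, g i ^ s i : ℝ) : ℂ) := by
  rw [Stein_ev, eval_monomial, Finsupp.prod_fintype _ _ (by simp)]
  push_cast
  rfl

omit [Fintype σ] in
@[simp] lemma Stein_ev_C (g : σ → ℝ) (a : ℂ) : Stein_ev g (C a) = a := by
  simp [Stein_ev]

omit [Fintype σ] in
@[simp] lemma Stein_ev_X (g : σ → ℝ) (s : σ) : Stein_ev g (X s) = (g s : ℂ) := by
  simp [Stein_ev]

lemma Stein_integrable_mon (s : σ →₀ ℕ) :
    Integrable (fun g : σ → ℝ => ∏ i, g i ^ s i) (gauss σ) :=
  Integrable.fintype_prod (f := fun i (x : ℝ) => x ^ s i) fun _ => R350.integrable_pow_gauss _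

lemma Stein_integrable_poly (P : MvPolynomial σ ℂ) :
    Integrable (fun g => Stein_ev g P) (gauss σ) := by
  induction P using MvPolynomial.induction_on' with
  | monomial s a =>
    simp only [Stein_ev_monomial]
    exact (Stein_integrable_mon s).ofReal.const_mul a
  | add p q hp hq => simp only [map_add]; exact hp.add hq

/-- Gaussian expectation of a polynomial. -/
noncomputable def Stein_E : MvPolynomial σ ℂ →+ ℂ where
  toFun P := ∫ g, Stein_ev g P ∂(gauss σ)
  map_zero' := by simp
  map_add' P Q := by
    simp only [map_add]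
    exact integral_add (Stein_integrable_poly P) (Stein_integrable_poly Q)

lemma Stein_E_apply (P : MvPolynomial σ ℂ) : Stein_E P = ∫ g, Stein_ev g P ∂(gauss σ) := rfl

lemma Stein_E_C_mul (a : ℂ) (P : MvPolynomial σ ℂ) : Stein_E (C a * P) = a * Stein_E P := by
  simp only [Stein_E_apply, map_mul, Stein_ev_C]
  exact integral_const_mul _ _

lemma Stein_E_monomial (s : σ →₀ ℕ) (a : ℂ) :
    Stein_E (monomial s a) = a * ((∏ i, R350.gm (s i) : ℝ) : ℂ) := by
  simp only [Stein_E_apply, Stein_ev_monomial]
  rw [integral_const_mul, integral_complex_ofReal,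
    integral_fintype_prod_eq_prod (f := fun i (x : ℝ) => x ^ s i)]
  rfl

/-- Gaussian integration by parts. -/
lemma Stein_E_stein (a : σ) (P : MvPolynomial σ ℂ) : Stein_E (X a * P) = Stein_E (pderiv a P) := by
  classical
  induction P using MvPolynomial.induction_on' with
  | monomial s c =>
    rw [pderiv_monomial, X, monomial_mul, Stein_E_monomial, Stein_E_monomial,
      ← Finset.mul_prod_erase _ _ (Finset.mem_univ a),
      ← Finset.mul_prod_erase _ _ (Finset.mem_univ a)]
    have h1 : ∏ i ∈ Finset.univ.erase a, R350.gm ((Finsupp.single a 1 + s : σ →₀ ℕ) i) =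
        ∏ i ∈ Finset.univ.erase a, R350.gm ((s - Finsupp.single a 1 : σ →₀ ℕ) i) :=
      Finset.prod_congr rfl fun i hi => by
        simp [Finsupp.single_eq_of_ne (Finset.ne_of_mem_erase hi)]
    rw [h1]
    simp only [Finsupp.coe_add, Pi.add_apply, Finsupp.single_eq_same, Finsupp.coe_tsub,
      Pi.sub_apply]
    rw [add_comm 1, R350.gm_succ]
    push_cast
    ring
  | add p q hp hq => rw [mul_add, map_add, map_add, map_add, hp, hq]

end SteinPoly

section SteinAlg
variable {R : Type*} [CommRing R] [Algebra ℂ R] {n : Type*} [Fintype n] [DecidableEq n]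

omit [DecidableEq n] in
lemma Stein_map_mul (D : Derivation ℂ R R) (A B : Matrix n n R) :
    (A * B).map D = A.map D * B + A * B.map D := by
  ext i j
  simp only [Matrix.map_apply, Matrix.mul_apply, map_sum, Derivation.leibniz, Matrix.add_apply,
    smul_eq_mul, ← Finset.sum_add_distrib]
  exact Finset.sum_congr rfl fun k _ => by ring

lemma Stein_splits_mul_left {α A : Type*} [Semiring A] (c : A) (w : List α)
    (f : List α → α → List α → A) : c * splits w f = splits w fun x a z => c * f x a z :=
  map_splits (AddMonoidHom.mulLeft c) w f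

lemma Stein_splits_mul_right {α A : Type*} [Semiring A] (c : A) (w : List α)
    (f : List α → α → List α → A) : splits w f * c = splits w fun x a z => f x a z * c :=
  map_splits (AddMonoidHom.mulRight c) w f

lemma Stein_map_prod {κ : Type*} (D : Derivation ℂ R R) (M : κ → Matrix n n R) (w : List κ) :
    (w.map M).prod.map D =
      splits w fun x a z => (x.map M).prod * (M a).map D * (z.map M).prod := by
  induction w with
  | nil =>
    ext i j
    by_cases h : i = j <;> simp [h]
  | cons c w ih =>
    rw [List.map_cons, List.prod_cons, Stein_map_mul, splits_cons, ih, Stein_splits_mul_left]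
    simp only [List.map_nil, List.prod_nil, one_mul, List.map_cons, List.prod_cons, mul_assoc]

lemma Stein_deriv_prod {κ : Type*} (D : Derivation ℂ R R) (f : κ → R) (w : List κ) :
    D (w.map f).prod = splits w fun x a z => (x.map f).prod * D (f a) * (z.map f).prod := by
  induction w with
  | nil => simp
  | cons c w ih =>
    rw [List.map_cons, List.prod_cons, Derivation.leibniz, splits_cons, ih, smul_eq_mul,
      smul_eq_mul, Stein_splits_mul_left, add_comm]
    simp only [List.map_nil, List.prod_nil, one_mul, List.map_cons, List.prod_cons, mul_assoc]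
    rw [mul_comm]

omit [DecidableEq n] in
lemma Stein_deriv_trace (D : Derivation ℂ R R) (A : Matrix n n R) :
    D (Matrix.trace A) = Matrix.trace (A.map D) := by
  simp [Matrix.trace]

variable {ι : Type*} [Fintype ι] (E : ι → Matrix n n R)
  (hE : ∀ i j k l, ∑ α, E α i j * E α k l = if i = l ∧ j = k then 1 else 0)

omit [Algebra ℂ R] in
include hE in
lemma Stein_sum_trace_two (A B : Matrix n n R) :
    ∑ α, Matrix.trace (E α * A) * Matrix.trace (E α * B) = Matrix.trace (A * B) := by
  simp only [Matrix.trace, Matrix.diag_apply, Matrix.mul_apply]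
  calc ∑ α, (∑ i, ∑ j, E α i j * A j i) * ∑ k, ∑ l, E α k l * B l k
      = ∑ α, ∑ i, ∑ j, ∑ k, ∑ l, (E α i j * E α k l) * (A j i * B l k) := by
        refine Finset.sum_congr rfl fun α _ => ?_
        simp only [Finset.sum_mul]
        simp only [Finset.mul_sum]
        refine Finset.sum_congr rfl fun i _ => Finset.sum_congr rfl fun j _ =>
          Finset.sum_congr rfl fun k _ => Finset.sum_congr rfl fun l _ => by ring
    _ = ∑ i, ∑ j, ∑ k, ∑ l, (∑ α, E α i j * E α k l) * (A j i * B l k) := by
        rw [Finset.sum_comm]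
        refine Finset.sum_congr rfl fun i _ => ?_
        rw [Finset.sum_comm]
        refine Finset.sum_congr rfl fun j _ => ?_
        rw [Finset.sum_comm]
        refine Finset.sum_congr rfl fun k _ => ?_
        rw [Finset.sum_comm]
        refine Finset.sum_congr rfl fun l _ => ?_
        rw [Finset.sum_mul]
    _ = ∑ i, ∑ j, A j i * B i j := by
        refine Finset.sum_congr rfl fun i _ => Finset.sum_congr rfl fun j _ => ?_
        simp only [hE, ite_mul, one_mul, zero_mul]
        rw [Finset.sum_eq_single j, Finset.sum_eq_single i]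
        · simp
        · intro l _ hl; simp [Ne.symm hl]
        · simp
        · intro k _ hk; simp [Ne.symm hk]
        · simp
    _ = _ := Finset.sum_comm

omit [Algebra ℂ R] in
include hE in
lemma Stein_sum_trace_one (A B : Matrix n n R) :
    ∑ α, Matrix.trace (E α * A * E α * B) = Matrix.trace A * Matrix.trace B := by
  simp only [Matrix.trace, Matrix.diag_apply, Matrix.mul_apply]
  calc ∑ α, ∑ i, ∑ l, (∑ k, (∑ j, E α i j * A j k) * E α k l) * B l i
      = ∑ α, ∑ i, ∑ l, ∑ k, ∑ j, (E α i j * E α k l) * (A j k * B l i) := by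
        refine Finset.sum_congr rfl fun α _ => ?_
        simp only [Finset.sum_mul]
        refine Finset.sum_congr rfl fun i _ => Finset.sum_congr rfl fun j _ =>
          Finset.sum_congr rfl fun k _ => Finset.sum_congr rfl fun l _ => by ring
    _ = ∑ i, ∑ l, ∑ k, ∑ j, (∑ α, E α i j * E α k l) * (A j k * B l i) := by
        rw [Finset.sum_comm]
        refine Finset.sum_congr rfl fun i _ => ?_
        rw [Finset.sum_comm]
        refine Finset.sum_congr rfl fun j _ => ?_
        rw [Finset.sum_comm]
        refine Finset.sum_congr rfl fun k _ => ?_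
        rw [Finset.sum_comm]
        refine Finset.sum_congr rfl fun l _ => ?_
        rw [Finset.sum_mul]
    _ = ∑ i, ∑ k, A k k * B i i := by
        refine Finset.sum_congr rfl fun i _ => ?_
        simp only [hE, ite_mul, one_mul, zero_mul]
        rw [Finset.sum_eq_single i]
        · refine Finset.sum_congr rfl fun k _ => ?_
          rw [Finset.sum_eq_single k]
          · simp
          · intro j _ hj; simp [hj]
          · simp
        · intro l _ hl; simp [Ne.symm hl]
        · simp
    _ = _ := by rw [Finset.sum_mul_sum, Finset.sum_comm]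

end SteinAlg

lemma Stein_tendsto_splits {α β : Type*} (l : Filter β) (w : List α)
    (f : β → List α → α → List α → ℂ) (g : List α → α → List α → ℂ)
    (h : ∀ x a z, w = x ++ a :: z → Tendsto (fun b => f b x a z) l (𝓝 (g x a z))) :
    Tendsto (fun b => splits w (f b)) l (𝓝 (splits w g)) := by
  induction w generalizing f g with
  | nil => exact tendsto_const_nhds
  | cons c w ih =>
    simp only [splits_cons]
    exact (h [] c w rfl).add (ih (fun b x a z => f b (c :: x) a z) _
      fun x a z hw => h (c :: x) a z (by simp [hw]))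

variable {I : Type} [Fintype I] [DecidableEq I]

/-- The product of the normalised traces of the words in `L`. -/
noncomputable def trProd (d : ℕ) (L : List (List I)) (g : I × (Fin d × Fin d) → ℝ) : ℂ :=
  (L.map fun w => (d : ℂ)⁻¹ * Matrix.trace (w.map (gue d g)).prod).prod

section SteinMat
open MvPolynomial

/-- The polynomial ring in the coordinates. -/
abbrev Stein_R (I : Type) (d : ℕ) : Type := MvPolynomial (I × (Fin d × Fin d)) ℂ

/-- The normalisation `(√d)⁻¹`. -/
noncomputable def Stein_rho (d : ℕ) : ℂ := (((Real.sqrt d)⁻¹ : ℝ) : ℂ)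

lemma Stein_rho_sq (d : ℕ) : Stein_rho d * Stein_rho d = (d : ℂ)⁻¹ := by
  rw [Stein_rho, ← Complex.ofReal_mul, ← mul_inv, Real.mul_self_sqrt (Nat.cast_nonneg d)]
  simp

/-- The basis matrices as constant polynomial matrices. -/
noncomputable def Stein_Eb (I : Type) {d : ℕ} (α : Fin d × Fin d) :
    Matrix (Fin d) (Fin d) (Stein_R I d) := (Eb α).map C

omit [Fintype I] [DecidableEq I] in
lemma Stein_Eb_complete {d : ℕ} (i j k l : Fin d) :
    ∑ α, Stein_Eb I α i j * Stein_Eb I α k l = if i = l ∧ j = k then 1 else 0 := by
  simp only [Stein_Eb, Matrix.map_apply, ← map_mul, ← map_sum, Eb_complete]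
  split_ifs <;> simp

/-- The generic GUE matrix. -/
noncomputable def Stein_M (d : ℕ) (i : I) : Matrix (Fin d) (Fin d) (Stein_R I d) :=
  ∑ α, (C (Stein_rho d) * X (i, α) : Stein_R I d) • Stein_Eb I α

/-- The normalised trace of a word. -/
noncomputable def Stein_tr (d : ℕ) (w : List I) : Stein_R I d :=
  C (d : ℂ)⁻¹ * Matrix.trace (w.map (Stein_M d)).prod

/-- The polynomial version of `trProd`. -/
noncomputable def Stein_P (d : ℕ) (L : List (List I)) : Stein_R I d := (L.map (Stein_tr d)).prod

omit [Fintype I] [DecidableEq I] in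
lemma Stein_ev_M (d : ℕ) (g : I × (Fin d × Fin d) → ℝ) (i : I) :
    (Stein_ev g).mapMatrix (Stein_M d i) = gue d g i := by
  ext a b
  rw [gue, herm_eq_sum]
  simp only [RingHom.mapMatrix_apply, Matrix.map_apply, Stein_M, Matrix.sum_apply,
    Matrix.smul_apply, smul_eq_mul, map_sum, map_mul, Stein_ev_C, Stein_ev_X, Stein_Eb,
    Finset.mul_sum, Stein_rho, mul_assoc]

omit [Fintype I] [DecidableEq I] in
lemma Stein_ev_P (d : ℕ) (L : List (List I)) (g : I × (Fin d × Fin d) → ℝ) :
    Stein_ev g (Stein_P d L) = trProd d L g := by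
  rw [Stein_P, trProd, map_list_prod, List.map_map]
  congr 1
  refine List.map_congr_left fun w _ => ?_
  simp only [Function.comp, Stein_tr, map_mul, Stein_ev_C]
  congr 1
  have h : (Stein_ev g).mapMatrix (w.map (Stein_M d)).prod = (w.map (gue d g)).prod := by
    rw [map_list_prod, List.map_map]
    congr 1
    exact List.map_congr_left fun i _ => Stein_ev_M d g i
  rw [← h]
  simp [Matrix.trace]

omit [Fintype I] in
lemma Stein_deriv_M (d : ℕ) (i a : I) (α : Fin d × Fin d) :
    (Stein_M d a).map (pderiv (i, α)) =
      if a = i then (C (Stein_rho d) : Stein_R I d) • Stein_Eb I α else 0 := by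
  ext1 p q
  simp only [Matrix.map_apply, Stein_M, Matrix.sum_apply, Matrix.smul_apply, smul_eq_mul, map_sum,
    Stein_Eb, Derivation.leibniz, derivation_C, pderiv_X, mul_zero, zero_add, add_zero]
  split_ifs with h
  · subst h
    rw [Finset.sum_eq_single α]
    · simp [mul_comm]
    · intro β _ hβ; simp [hβ]
    · simp
  · refine Finset.sum_eq_zero fun β _ => ?_
    simp [h]

omit [Fintype I] [DecidableEq I] in
lemma Stein_deriv_Eb (d : ℕ) (s : I × (Fin d × Fin d)) (α : Fin d × Fin d) :
    (Stein_Eb I α).map (pderiv s) = 0 := by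
  ext1 p q
  simp [Stein_Eb]

omit [Fintype I] in
/-- Derivative of `Tr(A · w(M))` for a matrix `A` which is killed by the derivation. -/
lemma Stein_deriv_word (d : ℕ) (i : I) (α : Fin d × Fin d) (w : List I)
    (A : Matrix (Fin d) (Fin d) (Stein_R I d)) (hA : A.map (pderiv (i, α)) = 0) :
    pderiv (i, α) (Matrix.trace (A * (w.map (Stein_M d)).prod)) =
      splits w fun x a z => if a = i then C (Stein_rho d) *
        Matrix.trace (A * (x.map (Stein_M d)).prod * Stein_Eb I α * (z.map (Stein_M d)).prod)
        else 0 := by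
  rw [Stein_deriv_trace, Stein_map_mul, hA, zero_mul, zero_add, Stein_map_prod,
    Stein_splits_mul_left]
  refine (map_splits (Matrix.traceAddMonoidHom (Fin d) (Stein_R I d)) w _).trans ?_
  refine splits_congr _ fun x a z _ => ?_
  rw [Stein_deriv_M]
  split_ifs with h
  · simp [mul_assoc]
  · simp

omit [Fintype I] [DecidableEq I] in
lemma Stein_P_cons_cons (d : ℕ) (i : I) (w : List I) (L : List (List I)) :
    Stein_P d ((i :: w) :: L) = ∑ α, X (i, α) * (C (Stein_rho d * (d : ℂ)⁻¹) *
      (Matrix.trace (Stein_Eb I α * (w.map (Stein_M d)).prod) * Stein_P d L)) := by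
  simp only [Stein_P, List.map_cons, List.prod_cons, Stein_tr]
  conv_lhs => rw [Stein_M]
  simp only [Finset.sum_mul, Matrix.trace_sum, Finset.mul_sum, Matrix.smul_mul, Matrix.trace_smul,
    smul_eq_mul, map_mul]
  exact Finset.sum_congr rfl fun α _ => by ring

omit [Fintype I] in
lemma Stein_sum_deriv (d : ℕ) (i : I) (w : List I) (L : List (List I)) :
    ∑ α, pderiv (i, α) (C (Stein_rho d * (d : ℂ)⁻¹) *
      (Matrix.trace (Stein_Eb I α * (w.map (Stein_M d)).prod) * Stein_P d L)) =
      (splits w fun x a z => if a = i then Stein_P d (x :: z :: L) else 0) +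
        C ((d : ℂ)⁻¹ ^ 2) * splits L fun L₁ v L₂ => splits v fun x a z =>
          if a = i then Stein_P d ((w ++ z ++ x) :: (L₁ ++ L₂)) else 0 := by
  have hρ : (C (Stein_rho d) : Stein_R I d) * C (Stein_rho d) = C (d : ℂ)⁻¹ := by
    rw [← map_mul, Stein_rho_sq]
  simp only [Derivation.leibniz, derivation_C, smul_eq_mul, mul_zero, add_zero, mul_add,
    Finset.sum_add_distrib]
  rw [add_comm]
  congr 1
  · simp only [Stein_deriv_word d i _ w _ (Stein_deriv_Eb d _ _), Stein_splits_mul_left]
    rw [← splits_sum]
    refine splits_congr _ fun x a z _ => ?_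
    split_ifs with h
    · rw [← Finset.mul_sum, ← Finset.mul_sum, ← Finset.mul_sum,
        Stein_sum_trace_one _ Stein_Eb_complete]
      simp only [Stein_P, List.map_cons, List.prod_cons, Stein_tr, map_mul]
      linear_combination (C (d : ℂ)⁻¹ * (L.map (Stein_tr d)).prod *
        (x.map (Stein_M d)).prod.trace * (z.map (Stein_M d)).prod.trace) * hρ
    · simp
  · have h1 : ∀ (α : Fin d × Fin d) (v : List I), pderiv (i, α) (Stein_tr d v) =
        splits v fun x a z => if a = i then C (d : ℂ)⁻¹ * (C (Stein_rho d) *
          Matrix.trace (Stein_Eb I α * ((z ++ x).map (Stein_M d)).prod)) else 0 := by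
      intro α v
      have h := Stein_deriv_word d i α v 1 (by
        ext1 p q
        by_cases h : p = q <;> simp [h])
      rw [one_mul] at h
      rw [Stein_tr, Derivation.leibniz, derivation_C, smul_eq_mul, smul_eq_mul, mul_zero, add_zero,
        h, Stein_splits_mul_left]
      refine splits_congr _ fun x a z _ => ?_
      split_ifs with h
      · rw [one_mul, List.map_append, List.prod_append, mul_assoc _ (Stein_Eb I α),
          Matrix.trace_mul_comm, mul_assoc (Stein_Eb I α)]
      · simp
    simp only [Stein_P, Stein_deriv_prod, h1, Stein_splits_mul_left, Stein_splits_mul_right]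
    rw [← splits_sum]
    refine splits_congr _ fun L₁ v L₂ _ => ?_
    rw [← splits_sum]
    refine splits_congr _ fun x a z _ => ?_
    split_ifs with h
    · have h2 := Stein_sum_trace_two _ (Stein_Eb_complete (I := I) (d := d))
        (w.map (Stein_M d)).prod ((z ++ x).map (Stein_M d)).prod
      have h3 : ∀ α : Fin d × Fin d, C (Stein_rho d * (d : ℂ)⁻¹) *
          ((Stein_Eb I α * (w.map (Stein_M d)).prod).trace * ((L₁.map (Stein_tr d)).prod *
            (C (d : ℂ)⁻¹ * (C (Stein_rho d) *
              (Stein_Eb I α * ((z ++ x).map (Stein_M d)).prod).trace)) *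
            (L₂.map (Stein_tr d)).prod)) =
          (C ((d : ℂ)⁻¹ ^ 2) * C (d : ℂ)⁻¹ * (L₁.map (Stein_tr d)).prod *
            (L₂.map (Stein_tr d)).prod) *
          ((Stein_Eb I α * (w.map (Stein_M d)).prod).trace *
            (Stein_Eb I α * ((z ++ x).map (Stein_M d)).prod).trace) := by
        intro α
        rw [map_mul, map_pow]
        linear_combination (C (d : ℂ)⁻¹ * C (d : ℂ)⁻¹ * (L₁.map (Stein_tr d)).prod *
            (L₂.map (Stein_tr d)).prod * (Stein_Eb I α * (w.map (Stein_M d)).prod).trace *
            (Stein_Eb I α * ((z ++ x).map (Stein_M d)).prod).trace) * hρ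
      simp only [h3]
      rw [← Finset.mul_sum, h2]
      simp only [List.map_cons, List.prod_cons, List.map_append, List.prod_append, Stein_tr,
        mul_assoc]
      ring
    · simp

/-- The Schwinger–Dyson recursion. -/
lemma Stein_rec (d : ℕ) (i : I) (w : List I) (L : List (List I)) :
    Stein_E (Stein_P d ((i :: w) :: L)) =
      (splits w fun x a z => if a = i then Stein_E (Stein_P d (x :: z :: L)) else 0) +
        (d : ℂ)⁻¹ ^ 2 * splits L fun L₁ v L₂ => splits v fun x a z =>
          if a = i then Stein_E (Stein_P d ((w ++ z ++ x) :: (L₁ ++ L₂))) else 0 := by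
  rw [Stein_P_cons_cons, map_sum]
  simp only [Stein_E_stein]
  rw [← map_sum, Stein_sum_deriv, map_add, Stein_E_C_mul]
  simp only [map_splits, apply_ite Stein_E, map_zero]

omit [Fintype I] [DecidableEq I] in
lemma Stein_P_nil_cons (d : ℕ) (hd : 1 ≤ d) (L : List (List I)) :
    Stein_P d ([] :: L) = Stein_P d L := by
  have h : (C (d : ℂ)⁻¹ : Stein_R I d) * (d : Stein_R I d) = 1 := by
    rw [← map_natCast (C : ℂ →+* Stein_R I d), ← map_mul, inv_mul_cancel₀, map_one]
    exact_mod_cast (by omega : d ≠ 0)
  simp [Stein_P, Stein_tr, h]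

lemma Stein_tendsto (L : List (List I)) :
    Tendsto (fun d : ℕ => Stein_E (Stein_P d L)) atTop (𝓝 (L.map fun w => tau0 (wd w)).prod) := by
  induction hn : (L.map fun w => w.length + 1).sum using Nat.strong_induction_on generalizing L with
  | _ n ih =>
    rcases L with _ | ⟨_ | ⟨i, w⟩, L⟩
    · simp [Stein_P, Stein_E_apply]
    · have h := ih _ (by simp [← hn]) L rfl
      simp only [List.map_cons, List.prod_cons, wd_nil, tau0_one, one_mul]
      refine h.congr' ?_
      filter_upwards [eventually_ge_atTop 1] with d hd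
      rw [Stein_P_nil_cons d hd]
    · simp only [Stein_rec]
      have h1 := Stein_tendsto_splits atTop w
        (fun (d : ℕ) x a z => if a = i then Stein_E (Stein_P d (x :: z :: L)) else 0)
        (fun x a z => if a = i then ((x :: z :: L).map fun w => tau0 (wd w)).prod else 0) (by
          intro x a z hw
          split_ifs
          · refine ih _ ?_ _ rfl
            simp [← hn, hw]; omega
          · exact tendsto_const_nhds)
      have h2 := Stein_tendsto_splits atTop L
        (fun (d : ℕ) L₁ v L₂ => splits v fun x a z =>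
          if a = i then Stein_E (Stein_P d ((w ++ z ++ x) :: (L₁ ++ L₂))) else 0)
        (fun L₁ v L₂ => splits v fun x a z =>
          if a = i then (((w ++ z ++ x) :: (L₁ ++ L₂)).map fun w => tau0 (wd w)).prod else 0) (by
          intro L₁ v L₂ hL
          refine Stein_tendsto_splits atTop v _ _ fun x a z hv => ?_
          split_ifs
          · refine ih _ ?_ _ rfl
            simp [← hn, hL, hv]; omega
          · exact tendsto_const_nhds)
      have h3 : Tendsto (fun d : ℕ => (d : ℂ)⁻¹ ^ 2) atTop (𝓝 0) := by
        have := (tendsto_inv_atTop_nhds_zero_nat (𝕜 := ℂ)).pow 2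
        simpa using this
      have h4 := h1.add (h3.mul h2)
      rw [zero_mul, add_zero] at h4
      convert h4 using 2
      rw [List.map_cons, List.prod_cons, tau0_wd_cons, Stein_splits_mul_right]
      refine splits_congr _ fun x a z _ => ?_
      split_ifs <;> simp [mul_assoc]

end SteinMat

/-- `trProd d L` is (the evaluation at real points of) a complex polynomial in the coordinates,
and monomials are integrable (see `Crest/Agent/R350/Gauss.lean`: `integrable_poly`, `EP_stein`
for real coefficients; either import that file and split into real and imaginary parts, or copy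
the proofs for `MvPolynomial σ ℂ` with `aeval (fun s => (g s : ℂ))`). -/
theorem integrable_trProd (d : ℕ) (L : List (List I)) :
    Integrable (trProd d L) (gauss (I × (Fin d × Fin d))) := by
  have h := Stein_integrable_poly (Stein_P d L)
  simp only [Stein_ev_P] at h
  exact h

/-- Asymptotic freeness of independent GUE matrices, in multi-trace form.

Proof.  Strong induction on `∑_{w ∈ L} (w.length + 1)`.  `L = []` is trivial; an empty first word
contributes the factor `1` for `d ≥ 1`.  For `L = (i :: w) :: L'` use the polynomial matrices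
`M i = ∑_α (ρ X_{(i,α)}) • Eb α` over `MvPolynomial σ ℂ` (`ρ = (√d)⁻¹`, `herm_eq_sum`) and Gaussian
integration by parts `𝔼[X_s Q] = 𝔼[∂_s Q]`:
`Tr(M_i W) Q = ∑_α ρ X_{(i,α)} Tr(E_α W) Q`, `∂_{(i,α)} M_j = δ_{ij} ρ E_α`, Leibniz rule for
products of matrices (`∂ (w.map M).prod = splits w …`) and for the product over `L'`, and
`∑_α Tr(E_α A E_α B) = Tr A Tr B`, `∑_α Tr(E_α A) Tr(E_α B) = Tr(A B)` (from `Eb_complete`).
Result (`d ≥ 1`):
`𝔼 trProd ((i::w)::L') = ∑_{w = x i z} 𝔼 trProd (x :: z :: L')
   + d⁻² ∑_{L' = L₁ ++ v :: L₂} ∑_{v = x i z} 𝔼 trProd ((w ++ z ++ x) :: L₁ ++ L₂)`,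
(both sums are `splits`), every list on the right has smaller measure, the second sum tends to
`0`, and the first converges to the right value by `tau0_wd_cons`. -/
theorem tendsto_trProd (L : List (List I)) :
    Tendsto (fun d : ℕ => ∫ g, trProd d L g ∂gauss (I × (Fin d × Fin d))) atTop
      (𝓝 (L.map fun w => tau0 (wd w)).prod) := by
  have h := Stein_tendsto L
  simp only [Stein_E_apply, Stein_ev_P] at h
  exact h

end Crest.Agent.R89
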